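import Vale.Agent.P358.MathlibUsed

set_option autoImplicit false

namespace Vale.Agent.P358

open Matrix
open scoped ComplexOrder

/-- Density matrices: positive semidefinite with trace one. -/
def IsState {ι : Type} [Fintype ι] (ρ : Matrix ι ι ℂ) : Prop :=
  ρ.PosSemidef ∧ ρ.trace = 1

/-- Von Neumann entropy in bits, from the eigenvalues. -/
noncomputable def entropy {ι : Type} [Fintype ι] [DecidableEq ι] (ρ : Matrix ι ι ℂ) : ℝ :=
  if h : ρ.IsHermitian then ∑ i, -(h.eigenvalues i * Real.logb 2 (h.eigenvalues i)) else 0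

/-- The set of Holevo quantities of finite ensembles of input states. -/
def holevoSet {ι κ : Type} [Fintype ι] [Fintype κ] [DecidableEq κ]
    (Φ : Matrix ι ι ℂ →ₗ[ℂ] Matrix κ κ ℂ) : Set ℝ :=
  {x | ∃ (m : ℕ) (w : Fin m → ℝ) (ρ : Fin m → Matrix ι ι ℂ),
    (∀ a, 0 ≤ w a) ∧ ∑ a, w a = 1 ∧ (∀ a, IsState (ρ a)) ∧
    x = entropy (∑ a, (w a : ℂ) • Φ (ρ a)) - ∑ a, w a * entropy (Φ (ρ a))}

/-- The Holevo capacity. -/
noncomputable def holevo {ι κ : Type} [Fintype ι] [Fintype κ] [DecidableEq κ]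
    (Φ : Matrix ι ι ℂ →ₗ[ℂ] Matrix κ κ ℂ) : ℝ :=
  sSup (holevoSet Φ)

/-- The `n`-fold tensor power of a linear map on matrices, as a function. -/
noncomputable def tensorPowerFun {ι κ : Type} [Fintype ι] [DecidableEq ι]
    (Φ : Matrix ι ι ℂ →ₗ[ℂ] Matrix κ κ ℂ) (n : ℕ) (X : Matrix (Fin n → ι) (Fin n → ι) ℂ) :
    Matrix (Fin n → κ) (Fin n → κ) ℂ :=
  Matrix.of fun y y' => ∑ x, ∑ x', X x x' * ∏ i, Φ (Matrix.single (x i) (x' i) 1) (y i) (y' i)

theorem tensorPowerFun_add {ι κ : Type} [Fintype ι] [DecidableEq ι]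
    (Φ : Matrix ι ι ℂ →ₗ[ℂ] Matrix κ κ ℂ) (n : ℕ) (X Y : Matrix (Fin n → ι) (Fin n → ι) ℂ) :
    tensorPowerFun Φ n (X + Y) = tensorPowerFun Φ n X + tensorPowerFun Φ n Y := by
  ext y y'
  simp [tensorPowerFun, add_mul, Finset.sum_add_distrib]

theorem tensorPowerFun_smul {ι κ : Type} [Fintype ι] [DecidableEq ι]
    (Φ : Matrix ι ι ℂ →ₗ[ℂ] Matrix κ κ ℂ) (n : ℕ) (c : ℂ) (X : Matrix (Fin n → ι) (Fin n → ι) ℂ) :
    tensorPowerFun Φ n (c • X) = c • tensorPowerFun Φ n X := by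
  ext y y'
  simp [tensorPowerFun, Finset.mul_sum, mul_assoc]

/-- The `n`-fold tensor power of a linear map on matrices. -/
noncomputable def tensorPower {ι κ : Type} [Fintype ι] [DecidableEq ι]
    (Φ : Matrix ι ι ℂ →ₗ[ℂ] Matrix κ κ ℂ) (n : ℕ) :
    Matrix (Fin n → ι) (Fin n → ι) ℂ →ₗ[ℂ] Matrix (Fin n → κ) (Fin n → κ) ℂ where
  toFun := tensorPowerFun Φ n
  map_add' := tensorPowerFun_add Φ n
  map_smul' := tensorPowerFun_smul Φ n

/-- The classical capacity: the supremum over `n ≥ 1` of the Holevo capacity per use. -/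
noncomputable def capacity {ι κ : Type} [Fintype ι] [DecidableEq ι] [Fintype κ] [DecidableEq κ]
    (Φ : Matrix ι ι ℂ →ₗ[ℂ] Matrix κ κ ℂ) : ℝ :=
  sSup {x | ∃ n : ℕ, 1 ≤ n ∧ x = holevo (tensorPower Φ n) / n}

/-- The generalized amplitude-damping channel, as a function. -/
noncomputable def gadcFun (γ ν : ℝ) (X : Matrix (Fin 2) (Fin 2) ℂ) : Matrix (Fin 2) (Fin 2) ℂ :=
  !![X.trace - ((1 - γ) * X 1 1 + γ * ν * X.trace), Real.sqrt (1 - γ) * X 0 1;
     Real.sqrt (1 - γ) * X 1 0, (1 - γ) * X 1 1 + γ * ν * X.trace]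

theorem gadcFun_add (γ ν : ℝ) (X Y : Matrix (Fin 2) (Fin 2) ℂ) :
    gadcFun γ ν (X + Y) = gadcFun γ ν X + gadcFun γ ν Y := by
  ext i j
  fin_cases i <;> fin_cases j <;> simp [gadcFun] <;> ring

theorem gadcFun_smul (γ ν : ℝ) (c : ℂ) (X : Matrix (Fin 2) (Fin 2) ℂ) :
    gadcFun γ ν (c • X) = c • gadcFun γ ν X := by
  ext i j
  fin_cases i <;> fin_cases j <;> simp [gadcFun] <;> ring

/-- The generalized amplitude-damping channel. -/
noncomputable def gadc (γ ν : ℝ) :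
    Matrix (Fin 2) (Fin 2) ℂ →ₗ[ℂ] Matrix (Fin 2) (Fin 2) ℂ where
  toFun := gadcFun γ ν
  map_add' := gadcFun_add γ ν
  map_smul' := gadcFun_smul γ ν

end Vale.Agent.P358
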