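import Vale.Agent.P358.MathlibUsed

set_option autoImplicit false

namespace Vale.Agent.P358

/-- Binary entropy in bits. -/
noncomputable def h2 (x : ℝ) : ℝ := -(x * Real.logb 2 x) - (1 - x) * Real.logb 2 (1 - x)

end Vale.Agent.P358
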